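import Mathlib
import Vale.Agent.Lib.P015.Wall
import Vale.Agent.Lib.P015.Strip

namespace Vale.Agent.Results.P015.SqrtLogRegion

open Vale.Agent.Lib.P015 GaussianInt

/-- width estimate -/
theorem width_le (D : ℝ) (hD : 0 ≤ D) (L W : ℕ) (hL : (L : ℝ) ≤ D + 1) (hW : 1 ≤ W) (x : ℝ)
    (hx : |x| ≤ 2 ^ (13 * ((L + 1) * (2 * W + 1)) ^ 2)) :
    Real.sqrt (Real.log (|x| + 2)) / (11 * (D + 2)) ≤ W := by
  set K : ℕ := (L + 1) * (2 * W + 1) with hK
  have hK1 : 1 ≤ K := by rw [hK]; exact Nat.mul_pos (by omega) (by omega)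
  have hpos : (0 : ℝ) < 11 * (D + 2) := by positivity
  rw [div_le_iff₀ hpos]
  have h1 : |x| + 2 ≤ 2 ^ (14 * K ^ 2) := by
    have h2 : (2 : ℝ) ≤ 2 ^ (13 * K ^ 2) := by
      calc (2 : ℝ) = 2 ^ 1 := by norm_num
        _ ≤ 2 ^ (13 * K ^ 2) := by
          apply pow_le_pow_right₀ (by norm_num)
          nlinarith
    calc |x| + 2 ≤ 2 ^ (13 * K ^ 2) + 2 ^ (13 * K ^ 2) := add_le_add hx h2
      _ = 2 ^ (13 * K ^ 2 + 1) := by rw [pow_succ]; ring
      _ ≤ 2 ^ (14 * K ^ 2) := by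
          apply pow_le_pow_right₀ (by norm_num)
          nlinarith
  have h3 : Real.log (|x| + 2) ≤ (14 * K ^ 2 : ℕ) * Real.log 2 := by
    rw [← Real.log_pow]
    apply Real.log_le_log (by positivity) h1
  have h4 : Real.log 2 ≤ 0.7 := by
    have := Real.log_two_lt_d9; linarith
  have hKle : (K : ℝ) ≤ 3 * ((D + 2) * W) := by
    have hW' : (1 : ℝ) ≤ W := by exact_mod_cast hW
    rw [hK]; push_cast
    have e1 : (L : ℝ) + 1 ≤ D + 2 := by linarith
    have e2 : 2 * (W : ℝ) + 1 ≤ 3 * W := by linarith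
    calc ((L : ℝ) + 1) * (2 * W + 1) ≤ (D + 2) * (3 * W) := by
          apply mul_le_mul e1 e2 (by positivity) (by positivity)
      _ = 3 * ((D + 2) * W) := by ring
  have hK0 : (0 : ℝ) ≤ K := by positivity
  have h5 : Real.log (|x| + 2) ≤ ((W : ℝ) * (11 * (D + 2))) ^ 2 := by
    have e3 : ((14 * K ^ 2 : ℕ) : ℝ) * Real.log 2 ≤ 14 * (K : ℝ) ^ 2 * 0.7 := by
      push_cast
      apply mul_le_mul_of_nonneg_left h4 (by positivity)
    have e4 : (K : ℝ) ^ 2 ≤ (3 * ((D + 2) * W)) ^ 2 := pow_le_pow_left₀ hK0 hKle 2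
    have e5 : (0 : ℝ) ≤ ((D + 2) * W) ^ 2 := by positivity
    nlinarith
  calc Real.sqrt (Real.log (|x| + 2)) ≤ Real.sqrt (((W : ℝ) * (11 * (D + 2))) ^ 2) :=
        Real.sqrt_le_sqrt h5
    _ = (W : ℝ) * (11 * (D + 2)) := Real.sqrt_sq (by positivity)


theorem aux (D : ℝ) (hD : 0 ≤ D) (S : Set {z : GaussianInt // Irreducible z})
    (hSdef : ∀ z ∈ S, |((z : GaussianInt).im : ℝ)| ≤
          Real.sqrt (Real.log (|((z : GaussianInt).re : ℝ)| + 2)) / (11 * (D + 2)))
    (C : ((moatGraph D).induce S).ConnectedComponent) :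
    C.supp.Finite := by
  obtain ⟨v, rfl⟩ := C.exists_rep
  set L : ℕ := ⌈D⌉₊ with hL
  have hDL : D ≤ L := Nat.le_ceil D
  have hLD : (L : ℝ) ≤ D + 1 := (Nat.ceil_lt_add_one hD).le
  set W : ℕ := (v.1.1.re).natAbs + 1 with hW
  have hW1 : 1 ≤ W := by omega
  obtain ⟨t, htW, htL, hwall⟩ := exists_wall L W
  have hprime : ∀ x : S, Prime (x.1 : GaussianInt) := fun x => irreducible_iff_prime.mp x.1.2
  -- points of the region with small real part have small imaginary part
  have himW : ∀ x : S, |(x.1.1.re : ℤ)| ≤ t + L → |(x.1.1.im : ℤ)| ≤ W := by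
    intro x hx
    have h1 : |((x.1.1.re : ℤ) : ℝ)| ≤ 2 ^ (13 * ((L + 1) * (2 * W + 1)) ^ 2) := by
      have : |(x.1.1.re : ℤ)| ≤ 2 ^ (13 * ((L + 1) * (2 * W + 1)) ^ 2) := le_trans hx htL
      exact_mod_cast this
    have h2 := width_le D hD L W hLD hW1 _ h1
    have h3 : |((x.1.1.im : ℤ) : ℝ)| ≤ W := le_trans (hSdef _ x.2) h2
    exact_mod_cast h3
  -- no point of the region lies over the two walls
  have hno1 : ∀ x : S, ¬ (t ≤ x.1.1.re ∧ x.1.1.re ≤ t + L) := by
    rintro x ⟨h1, h2⟩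
    have h3 : |(x.1.1.re : ℤ)| ≤ t + L := by
      rw [abs_le]; constructor <;> omega
    have h4 := abs_le.mp (himW x h3)
    exact hwall x.1.1.re x.1.1.im h1 h2 h4.1 h4.2 (hprime x)
  have hno2 : ∀ x : S, ¬ (-(t + L) ≤ x.1.1.re ∧ x.1.1.re ≤ -t) := by
    rintro x ⟨h1, h2⟩
    have h3 : |(x.1.1.re : ℤ)| ≤ t + L := by
      rw [abs_le]; constructor <;> omega
    have h4 := abs_le.mp (himW x h3)
    have h5 := hwall (-x.1.1.re) (-x.1.1.im) (by omega) (by omega) (by omega) (by omega)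
    apply h5
    have : (⟨-x.1.1.re, -x.1.1.im⟩ : GaussianInt) = -(x.1.1 : GaussianInt) := by
      apply Zsqrtd.ext <;> simp
    rw [this]
    exact (hprime x).neg
  let A : Set S := {x | -t < x.1.1.re ∧ x.1.1.re < t}
  have hvA : v ∈ A := by
    constructor <;> show _ < _ <;> omega
  have hclosed : ∀ x y, ((moatGraph D).induce S).Adj x y → x ∈ A → y ∈ A := by
    intro x y hadj hx
    have hd : dist ((x.1 : GaussianInt) : ℂ) ((y.1 : GaussianInt) : ℂ) ≤ D := hadj.2
    have hre : |(x.1.1.re : ℤ) - y.1.1.re| ≤ L := by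
      have h1 : |((x.1.1.re : ℤ) : ℝ) - ((y.1.1.re : ℤ) : ℝ)| ≤ L := by
        rw [GaussianInt.intCast_re, GaussianInt.intCast_re, ← Complex.sub_re]
        calc _ ≤ ‖((x.1 : GaussianInt) : ℂ) - ((y.1 : GaussianInt) : ℂ)‖ := Complex.abs_re_le_norm _
          _ ≤ D := by rw [← dist_eq_norm]; exact hd
          _ ≤ L := hDL
      exact_mod_cast h1
    rw [abs_le] at hre
    obtain ⟨hx1, hx2⟩ := hx
    have n1 := hno1 y
    have n2 := hno2 y
    constructor
    · show -t < y.1.1.re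
      by_contra hcon
      apply n2
      constructor <;> omega
    · show y.1.1.re < t
      by_contra hcon
      apply n1
      constructor <;> omega
  have hsub : (((moatGraph D).induce S).connectedComponentMk v).supp ⊆ A := by
    intro x hx
    have hx' : ((moatGraph D).induce S).Reachable x v := by
      simpa [SimpleGraph.ConnectedComponent.mem_supp_iff] using hx
    exact mem_of_reachable _ A hclosed hx'.symm hvA
  apply Set.Finite.subset _ hsub
  have hfin : (((Set.Icc (-t) t) ×ˢ (Set.Icc (-(W : ℤ)) W)).image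
      (fun q : ℤ × ℤ => (⟨q.1, q.2⟩ : GaussianInt))).Finite :=
    ((Set.finite_Icc (-t) t).prod (Set.finite_Icc (-(W : ℤ)) W)).image _
  have hinj : Function.Injective (fun x : S => (x.1 : GaussianInt)) := by
    intro x y hxy
    exact Subtype.ext (Subtype.ext hxy)
  apply Set.Finite.subset (hfin.preimage (hinj.injOn))
  intro x hx
  obtain ⟨hx1, hx2⟩ := hx
  have h3 : |(x.1.1.re : ℤ)| ≤ t + L := by
    rw [abs_le]; constructor <;> omega
  have h4 := abs_le.mp (himW x h3)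
  refine ⟨(x.1.1.re, x.1.1.im), ⟨⟨?_, ?_⟩, ⟨h4.1, h4.2⟩⟩, rfl⟩
  · show -t ≤ x.1.1.re
    omega
  · show x.1.1.re ≤ t
    omega

/-- For every step bound `D ≥ 0`, every connected component of `G_D` restricted to the Gaussian
primes `x + i y` in the region `|y| ≤ sqrt (log (|x| + 2)) / (11 (D + 2))` (whose width is
unbounded) is finite. -/
theorem result (D : ℝ) (hD : 0 ≤ D)
    (C : ((moatGraph D).induce
      {z : {z : GaussianInt // Irreducible z} |
        |((z : GaussianInt).im : ℝ)| ≤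
          Real.sqrt (Real.log (|((z : GaussianInt).re : ℝ)| + 2)) / (11 * (D + 2))}).ConnectedComponent) :
    C.supp.Finite :=
  aux D hD _ (fun _ hz => hz) C

end Vale.Agent.Results.P015.SqrtLogRegion
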