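import Mathlib
import Vale.Agent.Lib.P015.Strip

namespace Vale.Agent.Results.P015.StripAnyLine

open Vale.Agent.Lib.P015 Complex ComplexConjugate

/-- For every real line `line[ℝ, a, b]` in the plane (arbitrary real slope and offset), every width
`W` and every step bound `D`: every connected component of the graph `G_D`, restricted to the
Gaussian primes lying within distance `W` of the line, is finite. -/
theorem result (D W : ℝ) (a b : ℂ) (hab : a ≠ b)
    (C : ((moatGraph D).induce
      {z : {z : GaussianInt // Irreducible z} |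
        ∃ p ∈ line[ℝ, a, b], dist ((z : GaussianInt) : ℂ) p ≤ W}).ConnectedComponent) :
    C.supp.Finite := by
  have hn : ‖b - a‖ ≠ 0 := by
    rw [norm_ne_zero_iff]; exact sub_ne_zero.mpr hab.symm
  set u : ℂ := (b - a) / (‖b - a‖ : ℂ) with hu
  have hu1 : ‖u‖ = 1 := by
    rw [hu, norm_div, Complex.norm_real, norm_norm]; exact div_self hn
  have hba : b - a = (‖b - a‖ : ℂ) * u := by
    have hn' : (‖b - a‖ : ℂ) ≠ 0 := by exact_mod_cast hn
    rw [hu]; field_simp
  have huu : u * conj u = 1 := by
    rw [Complex.mul_conj, ← Complex.sq_norm, hu1]; simp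
  apply strip_component_finite (a := a) hu1 D W
  rintro z ⟨p, hp, hd⟩
  obtain ⟨r, rfl⟩ := mem_affineSpan_pair_iff_exists_lineMap_eq.mp hp
  have hpim : (phi a u (AffineMap.lineMap a b r)).im = 0 := by
    obtain ⟨ρ, hρ⟩ : ∃ ρ : ℝ, b - a = (ρ : ℂ) * u := ⟨_, hba⟩
    have : phi a u (AffineMap.lineMap a b r) = ((r * ρ : ℝ) : ℂ) := by
      unfold phi
      rw [AffineMap.lineMap_apply]
      simp only [vsub_eq_sub, vadd_eq_add, Complex.real_smul, add_sub_cancel_right]
      rw [hρ]
      push_cast
      linear_combination ((r : ℂ) * ρ) * huu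
    rw [this]; simp
  have h1 : (phi a u ((z : GaussianInt) : ℂ)).im
      = (phi a u ((z : GaussianInt) : ℂ) - phi a u (AffineMap.lineMap a b r)).im := by
    rw [Complex.sub_im, hpim, sub_zero]
  rw [h1, phi_sub]
  calc _ ≤ ‖(((z : GaussianInt) : ℂ) - AffineMap.lineMap a b r) * conj u‖ :=
        Complex.abs_im_le_norm _
    _ = ‖((z : GaussianInt) : ℂ) - AffineMap.lineMap a b r‖ := norm_mul_conj_unit hu1 _
    _ ≤ W := by rw [← dist_eq_norm]; exact hd

end Vale.Agent.Results.P015.StripAnyLine
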