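import Mathlib
import Vale.Agent.Results.P015.StripAnyLine
import Vale.Agent.Results.P015.SqrtLogRegion

namespace Vale.Agent.Results.P015.Combined

open Vale.Agent.Lib.P015

/-- (1) For every step bound `D`, every width `W` and every real line of the plane, all components
of `G_D` restricted to the Gaussian primes within distance `W` of the line are finite.
(2) For every `D ≥ 0`, all components of `G_D` restricted to the Gaussian primes `x + iy` with
`|y| ≤ sqrt (log (|x| + 2)) / (11 (D + 2))` are finite. -/
theorem result :
    (∀ (D W : ℝ) (a b : ℂ), a ≠ b →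
      ∀ C : ((moatGraph D).induce
        {z : {z : GaussianInt // Irreducible z} |
          ∃ p ∈ line[ℝ, a, b], dist ((z : GaussianInt) : ℂ) p ≤ W}).ConnectedComponent,
        C.supp.Finite) ∧
    (∀ D : ℝ, 0 ≤ D →
      ∀ C : ((moatGraph D).induce
        {z : {z : GaussianInt // Irreducible z} |
          |((z : GaussianInt).im : ℝ)| ≤
            Real.sqrt (Real.log (|((z : GaussianInt).re : ℝ)| + 2)) /
              (11 * (D + 2))}).ConnectedComponent,
        C.supp.Finite) :=
  ⟨fun D W a b hab C => Vale.Agent.Results.P015.StripAnyLine.result D W a b hab C,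
    fun D hD C => Vale.Agent.Results.P015.SqrtLogRegion.result D hD C⟩

end Vale.Agent.Results.P015.Combined
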