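import Mathlib
import Vale.Agent.Results.P015.StripAnyLine

namespace Vale.Agent.Results.P015.NoWalkNearLine

open Vale.Agent.Lib.P015

/-- There is no infinite sequence of pairwise distinct Gaussian primes with successive distances at
most `D` all of whose terms lie within distance `W` of a fixed straight line of the plane
(any real line: arbitrary slope and offset). -/
theorem result (D W : ℝ) (a b : ℂ) (hab : a ≠ b) :
    ¬ ∃ z : ℕ → GaussianInt, Function.Injective z ∧ (∀ n, Irreducible (z n)) ∧
      (∀ n, dist (z n : ℂ) (z (n + 1) : ℂ) ≤ D) ∧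
      (∀ n, ∃ p ∈ line[ℝ, a, b], dist (z n : ℂ) p ≤ W) := by
  rintro ⟨z, hinj, hirr, hstep, hline⟩
  let S : Set {z : GaussianInt // Irreducible z} :=
    {z | ∃ p ∈ line[ℝ, a, b], dist ((z : GaussianInt) : ℂ) p ≤ W}
  let v : ℕ → S := fun n => ⟨⟨z n, hirr n⟩, hline n⟩
  have hvinj : Function.Injective v := by
    intro m n h
    apply hinj
    have := congrArg (fun x : S => (x.1.1 : GaussianInt)) h
    exact this
  have hadj : ∀ n, ((moatGraph D).induce S).Adj (v n) (v (n + 1)) := by
    intro n
    refine ⟨?_, hstep n⟩
    intro h
    have h2 : z n = z (n + 1) := congrArg (fun x : {z : GaussianInt // Irreducible z} => x.1) h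
    have := hinj h2
    omega
  have hreach : ∀ n, ((moatGraph D).induce S).Reachable (v n) (v 0) := by
    intro n
    induction n with
    | zero => exact SimpleGraph.Reachable.refl _
    | succ n ih => exact ((hadj n).reachable.symm).trans ih
  have hfin := Vale.Agent.Results.P015.StripAnyLine.result D W a b hab
    (((moatGraph D).induce S).connectedComponentMk (v 0))
  have hsub : Set.range v ⊆ (((moatGraph D).induce S).connectedComponentMk (v 0)).supp := by
    rintro _ ⟨n, rfl⟩
    simpa [SimpleGraph.ConnectedComponent.mem_supp_iff] using hreach n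
  exact (Set.infinite_range_of_injective hvinj) (hfin.subset hsub)

end Vale.Agent.Results.P015.NoWalkNearLine
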